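import Vale.Agent.P286.So.Main

/-!
# Twisted `D`-modules on `Bun_G(ℙ¹)` for the groups `G = SO_{2n+1}` (type `B_n`)

For `n ≥ 2` let `G = SO_{2n+1}` (type `B_n`); the dual Coxeter number is `h^∨ = 2n - 1`.  For all
irrational `c` the DG category `D_c(Bun_G(ℙ¹))` is equivalent to the DG category of `D`-modules on
`BSO_{2n+1}`.  In particular it does not depend on `c`.
-/

namespace Vale.Agent.Results.P286.GenusZeroTypeB

open Vale.Agent.P286.St Vale.Agent.P286.So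

/-- The stack `Bun_{SO_{2n+1}}(ℙ¹)` with its canonical bundle `ω` and the twist
`(h^∨ - c)/(2 h^∨)`, `h^∨ = 2n - 1`. -/
noncomputable def DBun (n : ℕ) (c : ℂ) : TSite :=
  BunSO (2 * n + 1) ((((2 * n - 1 : ℕ) : ℂ) - c) / (2 * ((2 * n - 1 : ℕ) : ℂ)))

/-- Twisted `D`-modules on `Bun_{SO_{2n+1}}(ℙ¹)` at irrational level. -/
theorem result : ∀ (n : ℕ), 2 ≤ n → ∀ c : ℂ, (∀ q : ℚ, c ≠ (q : ℂ)) →
    DGEquivalent (DBun n c) (BSO (2 * n + 1)) ∧
    (∀ c' : ℂ, (∀ q : ℚ, c' ≠ (q : ℂ)) → DGEquivalent (DBun n c) (DBun n c')) ∧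
    ∃ K : Cx (DBun n c), K.Cart ∧ ¬ K.Acyclic := by
  intro n hn c hc
  have hh : 0 < 2 * n - 1 := by omega
  have h1 : ∀ c : ℂ, (∀ q : ℚ, c ≠ (q : ℂ)) → DGEquivalent (DBun n c) (BSO (2 * n + 1)) :=
    fun c hc => main (by omega) (not_resonant hh hc)
  exact ⟨h1 c hc, fun c' hc' => (h1 c hc).trans _ _ _ ((h1 c' hc').symm _ _),
    nonzero_Bun (2 * n + 1) _⟩

end Vale.Agent.Results.P286.GenusZeroTypeB
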