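import Vale.Agent.P286.Sp.Main

/-!
# Quantum geometric Langlands for the projective line and the groups of type `C_2 = B_2`

Let `G` be a group of type `C_n`, that is, `G = Sp_{2n}/μ_d` with `d = 1` or `d = 2`; the dual
Coxeter number is `h^∨ = n + 1`.  For `n = 2` we have `Sp_4/μ_2 = SO_5`, and the Langlands dual
group of `Sp_4/μ_d` is `Sp_4/μ_e` with `d e = 2`; the lacing number is `r = 2`.  For all irrational
`c` the DG categories `D_c(Bun_G(ℙ¹))` and `D_{-1/(2c)}(Bun_{G^∨}(ℙ¹))` are equivalent.  For all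
`n` the DG category `D_c(Bun_G(ℙ¹))` is equivalent to the DG category of `D`-modules on
`BSp_{2n}`.
-/

namespace Vale.Agent.Results.P286.GenusZeroTypeC

open Vale.Agent.P286.St Vale.Agent.P286.Sp

/-- The stack `Bun_G(ℙ¹)` for `G = Sp_{2n}/μ_d` with its canonical bundle `ω` and the twist
`(h^∨ - c)/(2 h^∨)`, `h^∨ = n + 1`. -/
noncomputable def DBun (n d : ℕ) (c : ℂ) : TSite :=
  BunSP (2 * n) d ((((n + 1 : ℕ) : ℂ) - c) / (2 * ((n + 1 : ℕ) : ℂ)))

/-- Quantum geometric Langlands on the projective line at irrational level, for the groups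
`Sp_4` and `SO_5 = Sp_4/μ_2`. -/
theorem result : ∀ (n d e : ℕ), 0 < n → d * e = 2 → ∀ c : ℂ, (∀ q : ℚ, c ≠ (q : ℂ)) →
    (n = 2 → DGEquivalent (DBun n d c) (DBun n e (-1 / (2 * c)))) ∧
    DGEquivalent (DBun n d c) (BSP (2 * n)) ∧
    ∃ K : Cx (DBun n d c), K.Cart ∧ ¬ K.Acyclic := by
  intro n d e hn hde c hc
  have hN : Even (2 * n) := even_two_mul n
  have h1 : DGEquivalent (DBun n d c) (BSP (2 * n)) :=
    main (Dvd.intro e hde) (by omega) hN (not_resonant (Nat.succ_pos n) hc)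
  have h2 : DGEquivalent (DBun n e (-1 / (2 * c))) (BSP (2 * n)) :=
    main (Dvd.intro_left d hde) (by omega) hN (not_resonant (Nat.succ_pos n) (irrational_inv hc))
  exact ⟨fun _ => h1.trans _ _ _ (h2.symm _ _), h1, nonzero_Bun (Dvd.intro e hde) _⟩

end Vale.Agent.Results.P286.GenusZeroTypeC
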