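import Vale.Agent.P286.So.Main

/-!
# Quantum geometric Langlands for the projective line and the groups `SO_{2n}`

For `n ≥ 3` let `G = SO_{2n}` (type `D_n`).  Its root datum is self-dual, so that the Langlands dual
group is `G^∨ = SO_{2n}`; the dual Coxeter number is `h^∨ = 2n - 2` and the lacing number is `r = 1`.
For all irrational `c` the DG categories `D_c(Bun_G(ℙ¹))` and `D_{-1/c}(Bun_{G^∨}(ℙ¹))` are
equivalent; both are equivalent to the DG category of `D`-modules on `BSO_{2n}`.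
-/

namespace Vale.Agent.Results.P286.GenusZeroTypeD

open Vale.Agent.P286.St Vale.Agent.P286.So

/-- The stack `Bun_{SO_{2n}}(ℙ¹)` with its canonical bundle `ω` and the twist
`(h^∨ - c)/(2 h^∨)`, `h^∨ = 2n - 2`. -/
noncomputable def DBun (n : ℕ) (c : ℂ) : TSite :=
  BunSO (2 * n) ((((2 * n - 2 : ℕ) : ℂ) - c) / (2 * ((2 * n - 2 : ℕ) : ℂ)))

/-- Quantum geometric Langlands on the projective line at irrational level, for the groups
`SO_{2n}`. -/
theorem result : ∀ (n : ℕ), 3 ≤ n → ∀ c : ℂ, (∀ q : ℚ, c ≠ (q : ℂ)) →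
    DGEquivalent (DBun n c) (DBun n (-1 / c)) ∧
    DGEquivalent (DBun n c) (BSO (2 * n)) ∧
    ∃ K : Cx (DBun n c), K.Cart ∧ ¬ K.Acyclic := by
  intro n hn c hc
  have hh : 0 < 2 * n - 2 := by omega
  have h1 : DGEquivalent (DBun n c) (BSO (2 * n)) :=
    main (by omega) (not_resonant hh hc)
  have h2 : DGEquivalent (DBun n (-1 / c)) (BSO (2 * n)) :=
    main (by omega) (not_resonant hh (Vale.Agent.P286.irrational_inv hc))
  exact ⟨h1.trans _ _ _ (h2.symm _ _), h1, nonzero_Bun (2 * n) _⟩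

end Vale.Agent.Results.P286.GenusZeroTypeD
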